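import Vale.Agent.N181.Pairs

set_option autoImplicit false

open scoped TensorProduct

universe u

namespace Vale.Agent.Results.P181.A0FoulkesNewPairs

open SymmetricPower

/-- **Foulkes' conjecture for new pairs below the square of `a - 1`.** Let `V` be a
finite-dimensional complex vector space and `ρ`, `τ` the representations of `GL(V)` on
`Sym^a(Sym^b V)` and `Sym^b(Sym^a V)`; both are determined by their values on products.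
There is a `GL(V)`-equivariant injection `Sym^a(Sym^b V) → Sym^b(Sym^a V)` if `a ≥ 7`, `a ≠ 8`,
`a ≢ 1 (mod 4)` and `b = (a - 1) ^ 2 - ⌊(a - 1) / 2⌋`. -/
theorem result (a b : ℕ) (ha : 7 ≤ a) (h8 : a ≠ 8) (h4 : a % 4 ≠ 1)
    (hb : b + (a - 1) / 2 = (a - 1) ^ 2)
    (V : Type u) [AddCommGroup V] [Module ℂ V] [FiniteDimensional ℂ V] :
    ∃ (ρ : Representation ℂ (LinearMap.GeneralLinearGroup ℂ V) (Sym[ℂ]^a (Sym[ℂ]^b V)))
      (τ : Representation ℂ (LinearMap.GeneralLinearGroup ℂ V) (Sym[ℂ]^b (Sym[ℂ]^a V))),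
      (∀ (g : LinearMap.GeneralLinearGroup ℂ V) (v : Fin a → Fin b → V),
        ρ g (⨂ₛ[ℂ] i, ⨂ₛ[ℂ] j, v i j) = ⨂ₛ[ℂ] i, ⨂ₛ[ℂ] j, (g : V →ₗ[ℂ] V) (v i j)) ∧
      (∀ (g : LinearMap.GeneralLinearGroup ℂ V) (w : Fin b → Fin a → V),
        τ g (⨂ₛ[ℂ] j, ⨂ₛ[ℂ] i, w j i) = ⨂ₛ[ℂ] j, ⨂ₛ[ℂ] i, (g : V →ₗ[ℂ] V) (w j i)) ∧
      ∃ Φ : ρ.IntertwiningMap τ, Function.Injective Φ := by
  obtain ⟨Φ, h1, h2⟩ := N181.foulkes_new.{u} ha h8 h4 hb.ge V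
  exact ⟨N181.rep a b V, N181.rep b a V, N181.rep_tprod a b V, N181.rep_tprod b a V,
    ⟨Φ, fun g => h1 (g : V →ₗ[ℂ] V)⟩, h2⟩

end Vale.Agent.Results.P181.A0FoulkesNewPairs
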